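import Vale.Agent.P101.Defs

/-!
P101, DropN: maps of a function algebra into the central sequences that induce unital
*-homomorphisms modulo null sequences.
-/

namespace Vale.Agent.P101.DropN

open scoped BoundedContinuousFunction unitInterval

variable {A : Type} [CStarAlgebra A] {w : Filter ℕ} {ι : Type} [Fintype ι] [DecidableEq ι]

/-- `φ` induces a unital *-homomorphism from the function algebra `Z` into the quotient of the
central sequences by `Null`. -/
structure IsHomMod (Z : Set C(I, Matrix ι ι ℂ)) (Null : (ℕ →ᵇ A) → Prop)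
    (φ : Z → centralSeq w A) : Prop where
  one : ∀ f : Z, (∀ t, f.1 t = 1) → Null ((φ f).1 - 1)
  add : ∀ f g h : Z, (∀ t, h.1 t = f.1 t + g.1 t) → Null ((φ h).1 - ((φ f).1 + (φ g).1))
  mul : ∀ f g h : Z, (∀ t, h.1 t = f.1 t * g.1 t) → Null ((φ h).1 - (φ f).1 * (φ g).1)
  smul : ∀ (c : ℂ) (f h : Z), (∀ t, h.1 t = c • f.1 t) → Null ((φ h).1 - c • (φ f).1)
  star_map : ∀ f h : Z, (∀ t, h.1 t = star (f.1 t)) → Null ((φ h).1 - star (φ f).1)

/-- Some map of the function algebra `Z` into the central sequences induces a unital *-homomorphism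
modulo `Null` and has all its values in `Fix`. -/
def HasMapMod (Z : Set C(I, Matrix ι ι ℂ)) (w : Filter ℕ)
    (Null Fix : (ℕ →ᵇ A) → Prop) : Prop :=
  ∃ φ : Z → centralSeq w A, IsHomMod Z Null φ ∧ ∀ f, Fix (φ f).1

end Vale.Agent.P101.DropN
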