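import Vale.Agent.P101.Defs
import Vale.Agent.P101.DropN.Hom.ZDrop
import Vale.Agent.P101.DropN.HomMod

/-!
P101, DropN: unital homomorphisms of Z(n+1,n+2) into the central sequences modulo the null ones, on
representatives.
-/

namespace Vale.Agent.P101.DropN

open scoped BoundedContinuousFunction

/-- Some map of Z(n+1,n+2) into the central sequences induces a unital *-homomorphism modulo the
null ones. -/
def HasDropN (w : Filter ℕ) (A : Type) [CStarAlgebra A] (n : ℕ) : Prop :=
  ∃ φ : ZDrop n → centralSeq w A, IsHomMod (SetLike.coe (ZDrop n)) (IsNull w) φ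

end Vale.Agent.P101.DropN
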