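import Vale.Agent.P101.DropN.Copy
import Vale.Agent.P101.DropN.Model
import Vale.Agent.P101.DropN.Hom.Main

/-!
P101, DropN: homomorphisms into a quotient of the central sequences read on representatives.
-/

namespace Vale.Agent.P101.DropN

open scoped BoundedContinuousFunction

theorem exists_lift_isHomMod {A : Type} [CStarAlgebra A] {w : Filter ℕ} {F : Type*}
    [CStarAlgebra F] (π : centralSeq w A →⋆ₐ[ℂ] F) (hπs : Function.Surjective π)
    {Null : (ℕ →ᵇ A) → Prop} (hπ : ∀ f : centralSeq w A, π f = 0 ↔ Null (f : ℕ →ᵇ A)) {n : ℕ}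
    (ψ : ZDrop n →⋆ₐ[ℂ] F) :
    ∃ φ : ZDrop n → centralSeq w A, (∀ f, π (φ f) = ψ f) ∧ IsHomMod (SetLike.coe (ZDrop n)) Null φ := by
  choose lift hlift using hπs
  refine ⟨fun f => lift (ψ f), fun f => hlift _, ⟨fun f hf => (hπ (_ - 1)).1 ?_,
    fun f g h hh => (hπ (_ - (_ + _))).1 ?_, fun f g h hh => (hπ (_ - _ * _)).1 ?_,
    fun c f h hh => (hπ (_ - c • _)).1 ?_, fun f h hh => (hπ (_ - star _)).1 ?_⟩⟩
  · rw [show f = 1 from Subtype.ext (ContinuousMap.ext hf)]
    simp only [map_sub, map_one, hlift, sub_self]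
  · rw [show h = f + g from Subtype.ext (ContinuousMap.ext hh)]
    simp only [map_sub, map_add, hlift, sub_self]
  · rw [show h = f * g from Subtype.ext (ContinuousMap.ext hh)]
    simp only [map_sub, map_mul, hlift, sub_self]
  · rw [show h = c • f from Subtype.ext (ContinuousMap.ext hh)]
    simp only [map_sub, map_smul, hlift, sub_self]
  · rw [show h = star f from Subtype.ext (ContinuousMap.ext hh)]
    simp only [map_sub, map_star, hlift, sub_self]

theorem exists_isHomMod {A : Type} [CStarAlgebra A] {w : Filter ℕ} {F : Type*} [CStarAlgebra F]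
    (π : centralSeq w A →⋆ₐ[ℂ] F) (hπs : Function.Surjective π) {Null : (ℕ →ᵇ A) → Prop}
    (hπ : ∀ f : centralSeq w A, π f = 0 ↔ Null (f : ℕ →ᵇ A)) {n : ℕ} {x : Fin (n + 1) → F} {t : F}
    (h : DropNRel x t) :
    ∃ (ψ : ZDrop n →⋆ₐ[ℂ] F) (φ : ZDrop n → centralSeq w A),
      (∀ f, π (φ f) = ψ f) ∧ IsHomMod (SetLike.coe (ZDrop n)) Null φ := by
  obtain ⟨ψ⟩ := Hom.exists_starAlgHom h
  exact ⟨ψ, exists_lift_isHomMod π hπs hπ ψ⟩

end Vale.Agent.P101.DropN
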