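import Vale.Agent.P101.DropN.Main
import Vale.Agent.P101.Commuting

/-!
P101, DropN: from copies of one pair to the relations of Z(n,n+1).
-/

namespace Vale.Agent.P101.DropN

universe u

theorem exists_commPairs_of_copy {F : Type u} [CStarAlgebra F]
    (hcopy : ∀ T : Finset F, ∃ a : F × F, DropRelations a.1 a.2 ∧
      ∀ b ∈ T, (Commute a.1 b ∧ Commute a.1 (star b)) ∧ (Commute a.2 b ∧ Commute a.2 (star b))) :
    ∃ y s : ℕ → F, (∀ k, DropRelations (y k) (s k)) ∧ CommPairs y s := by
  classical
  choose pick hrel hcomm using hcopy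
  let T : ℕ → Finset F := fun k =>
    Nat.rec ∅ (fun _ S => S ∪ {(pick S).1, (pick S).2}) k
  refine ⟨fun k => (pick (T k)).1, fun k => (pick (T k)).2, fun k => hrel _, ?_⟩
  have hsub : ∀ {l k}, l < k → ∀ b, b = (pick (T l)).1 ∨ b = (pick (T l)).2 → b ∈ T k := by
    intro l k hlk
    induction k with
    | zero => omega
    | succ k ih =>
      intro b hb
      show b ∈ T k ∪ {(pick (T k)).1, (pick (T k)).2}
      rcases Nat.lt_succ_iff_lt_or_eq.1 hlk with h1 | rfl
      · exact Finset.mem_union_left _ (ih h1 b hb)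
      · exact Finset.mem_union_right _ (by simpa using hb)
  intro i j hij a ha b hb
  rcases lt_or_gt_of_ne hij with h1 | h1
  · have hc := hcomm (T j) a (hsub h1 a ha)
    rcases hb with rfl | rfl
    · exact ⟨hc.1.1.symm, by simpa using hc.1.2.star_star.symm⟩
    · exact ⟨hc.2.1.symm, by simpa using hc.2.2.star_star.symm⟩
  · have hc := hcomm (T i) b (hsub h1 b hb)
    rcases ha with rfl | rfl
    · exact ⟨hc.1.1, hc.1.2⟩
    · exact ⟨hc.2.1, hc.2.2⟩

/-- An algebra with copies and one pair with the relations of Z(2,3) has those of Z(n,n+1). -/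
theorem exists_dropN_of_hasCopies {F : Type u} [CStarAlgebra F] (hC : HasCopies F) {y s : F}
    (h : DropRelations y s) (n : ℕ) [NeZero n] : ∃ (x : Fin n → F) (t : F), DropNRel x t := by
  obtain ⟨ys, ss, h1, h2⟩ := exists_commPairs_of_copy (exists_drop_copy hC h)
  exact exists_dropN ys ss h1 h2 n

end Vale.Agent.P101.DropN
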