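import Vale.Agent.P101.Defs

/-!
P101, DropN: the relations of the dimension drop algebra Z(n,n+1), and the data of the construction
from commuting copies of Z(2,3) (notes/P101/helper2_dropn.md).
-/

namespace Vale.Agent.P101.DropN

/-- The Rørdam-Winter relations of Z(n,n+1): `x i` are the row of an order zero map of `M n`
(`x 0` positive, equal `x i * star (x i)`, orthogonal `star (x i) * x i`), and `t` moves the defect
below the first corner. -/
def DropNRel {F : Type*} [NormedRing F] [StarRing F] {n : ℕ} [NeZero n] (x : Fin n → F)
    (t : F) : Prop :=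
  (∃ c, x 0 = star c * c) ∧ (∀ i, ‖x i‖ ≤ 1) ∧ (∀ i, x i * star (x i) = x 0 * x 0) ∧
  (∀ i j, i ≠ j → star (x i) * x i * (star (x j) * x j) = 0) ∧
  star t * t = 1 - ∑ i, star (x i) * x i ∧ star (x 0) * x 0 * t = t

/-- One site: a row of two elements with a gate, orthogonal elements below the top covering the
complement of the gate, and a partition of one below the top, orthogonal to them. -/
structure Site (G : Type*) [Ring G] [StarRing G] [PartialOrder G] (I : Type) [Fintype I]
    (K : ℕ) where
  /-- The row. -/
  z : Fin 2 → G
  /-- The top element. -/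
  e : G
  /-- The gate. -/
  g : G
  /-- The slots. -/
  s : Fin K → G
  /-- The partition of one. -/
  T : I → G
  mul_star : ∀ a b, z a * star (z b) = if a = b then e else 0
  g_self : star g = g
  g_comm : ∀ c, Commute g (z c)
  sum_le : ∑ c, star (z c) * z c ≤ 1
  absorb : g * ∑ c, star (z c) * z c = g
  top_z : ∀ c, e * (g * z c) = g * z c
  top_s : ∀ k, e * s k = s k
  top_T : ∀ i, e * T i = T i
  s_sum : ∀ k, star (s k) * s k = 1 - g * g
  s_orth : ∀ k l, k ≠ l → star (s k) * s l = 0
  T_sum : ∑ i, star (T i) * T i = 1
  T_s : ∀ i k, star (T i) * s k = 0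

end Vale.Agent.P101.DropN
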