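import Vale.Agent.P101.DropN.Stack

/-!
P101, DropN: commuting copies of Z(2,3) give the relations of Z(n,n+1) for every n.
-/

namespace Vale.Agent.P101.DropN

universe u

/-- The corner of a tower: an order zero row of length `n` from one of length `2 ^ k`, the few left
over corners being moved to spare slots under the first one. -/
theorem exists_corner {F : Type u} [CStarAlgebra F] [PartialOrder F] [StarOrderedRing F]
    {C : StarSubalgebra ℂ F} {k : ℕ} (T : Tower C k Unit) {n : ℕ} [NeZero n]
    (hk : n * n ≤ 2 ^ k) : ∃ (x : Fin n → F) (t : F), DropNRel x t := by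
  classical
  let := T.finM
  let := T.finA
  have hn : 0 < n := Nat.pos_of_ne_zero (NeZero.ne n)
  set q : ℕ := 2 ^ k / n with hq
  set r : ℕ := 2 ^ k % n with hr
  have hnq : n ≤ q := (Nat.le_div_iff_mul_le hn).2 hk
  have hrn : r < n := Nat.mod_lt _ hn
  let E : (Fin k → Fin 2) ≃ (Fin n × Fin q) ⊕ Fin r :=
    Fintype.equivOfCardEq (by simp [hq, hr, Nat.div_add_mod])
  let m : Fin n → Fin q → F := fun i p => T.x (E.symm (Sum.inl (i, p)))
  let o : Fin r → F := fun j => T.x (E.symm (Sum.inr j))
  have hmm : ∀ i p i' p', m i p * star (m i' p') = if i = i' ∧ p = p' then T.e else 0 := by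
    intro i p i' p'
    simp only [m]
    rw [T.mul_star]
    exact if_congr (by simp) rfl rfl
  have he : T.e = T.x (E.symm (Sum.inl (0, ⟨0, by omega⟩))) *
      star (T.x (E.symm (Sum.inl (0, ⟨0, by omega⟩)))) := by
    rw [T.mul_star, if_pos rfl]
  have hes : star T.e = T.e := by
    conv_lhs => rw [he, star_mul, star_star]
    exact he.symm
  have he0 : 0 ≤ T.e := by rw [he]; exact mul_star_self_nonneg _
  have he1 : T.e ≤ 1 := by
    rw [he]
    refine CStarAlgebra.norm_le_one_iff_of_nonneg _ (mul_star_self_nonneg _) |>.1 ?_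
    rw [CStarRing.norm_self_mul_star, ← CStarRing.norm_star_mul_self]
    refine (CStarAlgebra.norm_le_one_iff_of_nonneg _ (star_mul_self_nonneg _)).2
      (le_trans ?_ T.sum_le)
    exact Finset.single_le_sum (f := fun b => star (T.x b) * T.x b)
      (fun b _ => star_mul_self_nonneg _) (Finset.mem_univ _)
  let x : Fin n → F := fun i => ∑ p, star (m 0 p) * m i p
  -- products of the row
  have xx : ∀ i j, x i * star (x j) =
      if i = j then ∑ p, star (m 0 p) * T.e * m 0 p else 0 := by
    intro i j
    simp only [x, star_sum, star_mul, star_star, Finset.sum_mul_sum]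
    split_ifs with hij
    · subst hij
      refine Finset.sum_congr rfl fun p _ => ?_
      rw [Finset.sum_eq_single p (fun p' _ hp => ?_) (fun h => absurd (Finset.mem_univ p) h)]
      · rw [mul_assoc, ← mul_assoc (m i p), hmm, if_pos ⟨rfl, rfl⟩, ← mul_assoc]
      · rw [mul_assoc, ← mul_assoc (m i p), hmm, if_neg (fun h => hp h.2.symm), zero_mul, mul_zero]
    · refine Finset.sum_eq_zero fun p _ => Finset.sum_eq_zero fun p' _ => ?_
      rw [mul_assoc, ← mul_assoc (m i p), hmm, if_neg (fun h => hij h.1), zero_mul, mul_zero]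
  have x0s : star (x 0) = x 0 := by simp [x, star_sum]
  have x00 : x 0 * x 0 = ∑ p, star (m 0 p) * T.e * m 0 p := by
    conv_lhs => rw [show x 0 * x 0 = x 0 * star (x 0) by rw [x0s]]
    rw [xx, if_pos rfl]
  have x0n : 0 ≤ x 0 := Finset.sum_nonneg fun p _ => star_mul_self_nonneg _
  -- sums over the whole row
  have split : ∀ f : (Fin k → Fin 2) → F, ∑ b, f b
      = (∑ i, ∑ p, f (E.symm (Sum.inl (i, p)))) + ∑ j, f (E.symm (Sum.inr j)) := fun f => by
    rw [← Equiv.sum_comp E.symm f, Fintype.sum_sum_type, Fintype.sum_prod_type]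
  have hA := T.sum_le
  rw [split] at hA
  have hA1 : ∑ i, ∑ p, star (m i p) * m i p ≤ 1 :=
    le_trans (le_add_of_nonneg_right (Finset.sum_nonneg fun j _ => star_mul_self_nonneg _)) hA
  have x01 : x 0 ≤ 1 := le_trans (Finset.single_le_sum
    (f := fun i => ∑ p, star (m i p) * m i p)
    (fun i _ => Finset.sum_nonneg fun p _ => star_mul_self_nonneg _) (Finset.mem_univ 0)) hA1
  have xnorm : ∀ i, ‖x i‖ ≤ 1 := by
    intro i
    have h0 : ‖x 0‖ ≤ 1 := (CStarAlgebra.norm_le_one_iff_of_nonneg _ x0n).2 x01
    have h1 : ‖x i‖ * ‖x i‖ ≤ 1 := by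
      rw [← CStarRing.norm_self_mul_star, xx, if_pos rfl, ← x00]
      exact le_trans (norm_mul_le _ _) (by nlinarith [norm_nonneg (x 0)])
    nlinarith [norm_nonneg (x i)]
  -- the defect
  set S : F := ∑ i, ∑ p, star (m i p) * T.e * m i p with hS
  have xsum : ∑ i, star (x i) * x i = S := by
    refine Finset.sum_congr rfl fun i _ => ?_
    simp only [x, star_sum, star_mul, star_star, Finset.sum_mul_sum]
    refine Finset.sum_congr rfl fun p _ => ?_
    rw [Finset.sum_eq_single p (fun p' _ hp => ?_) (fun h => absurd (Finset.mem_univ p) h)]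
    · rw [mul_assoc, ← mul_assoc (m 0 p), hmm, if_pos ⟨rfl, rfl⟩, ← mul_assoc]
    · rw [mul_assoc, ← mul_assoc (m 0 p), hmm, if_neg (fun h => hp h.2.symm), zero_mul, mul_zero]
  have S1 : S ≤ 1 := by
    refine le_trans (Finset.sum_le_sum fun i _ => Finset.sum_le_sum fun p _ => ?_) hA1
    simpa using star_left_conjugate_le_conjugate he1 (m i p)
  set L : F := ∑ j, star (T.G * o j) * (T.G * o j) with hL
  set H : F := T.G * T.G with hH
  have GH : ∀ b, Commute H (T.x b) := fun b => (T.G_comm b).mul_left (T.G_comm b)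
  have GH' : ∀ b, Commute H (star (T.x b)) := fun b => by
    have := (GH b).star_star
    rwa [show star H = H by rw [hH, star_mul, T.G_self]] at this
  have Hx : ∀ b, H * (star (T.x b) * T.e * T.x b) = H * (star (T.x b) * T.x b) := by
    intro b
    have h1 : Commute T.G (star (T.x b)) := by
      have := (T.G_comm b).star_star; rwa [T.G_self] at this
    have h2 : Commute T.G T.e := by
      rw [he]
      have := (T.G_comm (E.symm (Sum.inl (0, ⟨0, by omega⟩)))).star_star
      rw [T.G_self] at this
      exact (T.G_comm _).mul_right this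
    rw [hH, mul_assoc T.G, mul_assoc T.G T.G (_ * T.x b), ← mul_assoc T.G (_ * T.e),
      ← mul_assoc T.G (star _) T.e, h1.eq, mul_assoc (star (T.x b)) T.G T.e, h2.eq,
      mul_assoc (star (T.x b)), mul_assoc T.e, T.top_x, ← mul_assoc (star (T.x b)), ← h1.eq,
      mul_assoc T.G (star (T.x b))]
  have Hrest : H * (1 - S) = L := by
    have h1 : H * ∑ b, star (T.x b) * T.x b = H := by rw [hH, mul_assoc, T.absorb]
    rw [split, mul_add] at h1
    have h2 : H * S = H * ∑ i, ∑ p, star (m i p) * m i p := by
      simp only [hS, Finset.mul_sum, m, Hx]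
    have h3 : L = H * ∑ j, star (o j) * o j := by
      rw [hL, Finset.mul_sum]
      refine Finset.sum_congr rfl fun j _ => ?_
      rw [star_mul, T.G_self, mul_assoc (star (o j)), ← mul_assoc T.G T.G, ← hH,
        ← mul_assoc (star (o j)), ← mul_assoc H]
      simp only [o]
      rw [(GH' _).eq]
    rw [mul_sub, mul_one, h2, h3, sub_eq_iff_eq_add']
    exact h1.symm
  have HS : 0 ≤ (1 - H) * S := by
    rw [hS, Finset.mul_sum]
    refine Finset.sum_nonneg fun i _ => ?_
    rw [Finset.mul_sum]
    refine Finset.sum_nonneg fun p _ => ?_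
    have h1 : ∀ b, Commute (1 - H) (star (T.x b)) := fun b =>
      (Commute.one_left _).sub_left (GH' b)
    have hH0 : 0 ≤ 1 - H := by
      have := Finset.sum_nonneg (fun a (_ : a ∈ Finset.univ) => star_mul_self_nonneg (T.v a ()))
      rwa [T.v_sum] at this
    have h2 : 0 ≤ (1 - H) * T.e := by
      rw [he, ← mul_assoc, ((Commute.one_left _).sub_left (GH _)).eq]
      exact star_right_conjugate_nonneg hH0 _
    rw [← mul_assoc, ← mul_assoc]
    simp only [m]
    rw [(h1 _).eq, mul_assoc _ (1 - H) T.e]
    exact star_left_conjugate_nonneg h2 _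
  have defect : 1 - S ≤ (1 - H) + L := by
    have : (1 - S) = (1 - H) + L - (1 - H) * S := by
      rw [← Hrest]; noncomm_ring
    rw [this]
    exact sub_le_self _ HS
  -- the vectors under the first corner
  let p₀ : Option (Fin r) → Fin q := fun a =>
    a.elim ⟨0, by omega⟩ fun j => ⟨(j : ℕ) + 1, by have := j.2; omega⟩
  let u : Option (Fin r) → F := fun a => a.elim (∑ c, T.v c ()) fun j => T.G * o j
  have hp₀ : Function.Injective p₀ := by
    rintro (_ | i) (_ | j) h <;> simp [p₀, Fin.ext_iff] at h ⊢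
    omega
  have eu : ∀ a, T.e * u a = u a := by
    rintro (_ | j)
    · simp only [u, Option.elim_none]
      rw [Finset.mul_sum]
      simp only [T.top_v]
    · exact T.top_x _
  set w : F := ∑ a, star (m 0 (p₀ a)) * u a with hw
  have ww : star w * w = (1 - H) + L := by
    have key : ∀ a b, star (star (m 0 (p₀ a)) * u a) * (star (m 0 (p₀ b)) * u b)
        = if a = b then star (u a) * u b else 0 := by
      intro a b
      rw [star_mul, star_star, mul_assoc, ← mul_assoc (m 0 (p₀ a)), hmm]
      by_cases hab : a = b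
      · rw [if_pos ⟨rfl, congrArg p₀ hab⟩, if_pos hab, eu]
      · rw [if_neg (fun h => hab (hp₀ h.2)), if_neg hab, zero_mul, mul_zero]
    rw [hw, star_sum, Finset.sum_mul_sum]
    simp only [key, Finset.sum_ite_eq, Finset.mem_univ, if_true]
    rw [Fintype.sum_option]
    simp only [u, Option.elim_none, Option.elim_some]
    rw [← hL, star_sum, Finset.sum_mul_sum, ← T.v_sum ()]
    congr 1
    refine Finset.sum_congr rfl fun a _ => ?_
    exact Finset.sum_eq_single a
      (fun b _ hb => T.v_orth a () b () (fun h => hb (by simpa using h.symm)))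
      (fun h => absurd (Finset.mem_univ a) h)
  have topw : star (x 0) * x 0 * w = w := by
    rw [x0s, x00, hw, Finset.mul_sum]
    refine Finset.sum_congr rfl fun a _ => ?_
    rw [Finset.sum_mul, Finset.sum_eq_single (p₀ a) (fun p _ hp => ?_)
      (fun h => absurd (Finset.mem_univ _) h)]
    · rw [mul_assoc, ← mul_assoc (m 0 _), hmm, if_pos ⟨rfl, rfl⟩, mul_assoc _ T.e, eu, eu]
    · rw [mul_assoc, ← mul_assoc (m 0 p), hmm, if_neg (fun h => hp h.2), zero_mul, mul_zero]
  -- the polar part
  set a : F := cfc Real.sqrt (1 - S) with ha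
  have haa : a * a = 1 - S := by
    rw [ha, ← cfc_mul Real.sqrt Real.sqrt (1 - S)]
    conv_rhs => rw [← cfc_id' ℝ (1 - S) (IsSelfAdjoint.of_nonneg (sub_nonneg.2 S1))]
    exact cfc_congr (fun t ht =>
      Real.mul_self_sqrt (spectrum_nonneg_of_nonneg (sub_nonneg.2 S1) ht))
  obtain ⟨t, ht1, ht2⟩ := exists_polar (w := w) (a := a) (cfc_predicate _ _)
    (by rw [haa, ww]; exact defect)
  refine ⟨x, t, CStarAlgebra.nonneg_iff_eq_star_mul_self.1 x0n, xnorm,
    fun i => by rw [xx, if_pos rfl, x00], fun i j hij => ?_,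
    by rw [ht1, haa, xsum], ht2 _ topw⟩
  rw [mul_assoc, ← mul_assoc (x i), xx, if_neg hij, zero_mul, mul_zero]

/-- Countably many commuting pairs with the relations of Z(2,3) give the relations of Z(n,n+1). -/
theorem exists_dropN {F : Type u} [CStarAlgebra F] (y s : ℕ → F)
    (h : ∀ k, DropRelations (y k) (s k)) (hc : CommPairs y s) (n : ℕ) [NeZero n] :
    ∃ (x : Fin n → F) (t : F), DropNRel x t := by
  letI : PartialOrder F := CStarAlgebra.spectralOrder F
  haveI : StarOrderedRing F := CStarAlgebra.spectralOrderedRing F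
  obtain ⟨D, hD, hS⟩ := exists_sites y s h hc
  obtain ⟨T⟩ := exists_tower D hD hS (2 * n) Unit
  refine exists_corner T ?_
  rw [two_mul, pow_add]
  exact Nat.mul_le_mul (Nat.lt_two_pow_self).le (Nat.lt_two_pow_self).le

end Vale.Agent.P101.DropN
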