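import Vale.Agent.P101.DropN.Slots

/-!
P101, DropN: sites from commuting pairs with the relations of Z(2,3), lying in pairwise commuting
subalgebras.
-/

namespace Vale.Agent.P101.DropN

universe u

/-- Pairs are commuting with adjoints. -/
def CommPairs {G : Type*} [Mul G] [Star G] {ι : Type*} (y s : ι → G) : Prop :=
  ∀ i j, i ≠ j → ∀ a, a = y i ∨ a = s i → ∀ b, b = y j ∨ b = s j →
    Commute a b ∧ Commute a (star b)

/-- The witness carried by a pair with the relations of Z(2,3). -/
def dropWitness {G : Type*} [Ring G] [StarRing G] {y s : G} (h : DropRelations y s) :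
    Witness G 1 3 where
  z := fun _ => y
  b := ![star y, 1, star s * star y]
  c := ![1, star y, s]
  idx := fun _ => 0
  sq := fun _ => h.1
  gen := by
    simp only [Fin.sum_univ_three, Matrix.cons_val_zero, Matrix.cons_val_one, Matrix.cons_val_two,
      Matrix.tail_cons, Matrix.head_cons, mul_one, one_mul]
    rw [mul_assoc (star s) (star y) y, mul_assoc (star s) (star y * y) s, h.2.2, h.2.1]
    abel

theorem dropWitness_commute {G : Type*} [Ring G] [StarRing G] {y s y' s' : G}
    (h : DropRelations y s) (h' : DropRelations y' s')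
    (hc : ∀ a, a = y ∨ a = s → ∀ b, b = y' ∨ b = s' → Commute a b ∧ Commute a (star b)) :
    ∀ a ∈ (dropWitness h).entries, ∀ b ∈ (dropWitness h').entries,
      Commute a b ∧ Commute a (star b) := by
  have mem : ∀ {v w : G} (hvw : DropRelations v w), ∀ a ∈ (dropWitness hvw).entries,
      ∀ g, Commute v g → Commute (star v) g → Commute w g → Commute (star w) g → Commute a g := by
    intro v w hvw a ha g g1 g2 g3 g4
    simp only [Witness.entries, dropWitness, Set.mem_union, Set.mem_range] at ha
    rcases ha with (⟨_, rfl⟩ | ⟨i, rfl⟩) | ⟨i, rfl⟩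
    · exact g1
    all_goals fin_cases i
    exacts [g2, Commute.one_left g, g4.mul_left g2, Commute.one_left g, g2, g3]
  intro a ha b hb
  have key : ∀ c, c = y ∨ c = star y ∨ c = s ∨ c = star s → Commute c b ∧ Commute c (star b) := by
    intro c hc'
    have h1 : ∀ d, d = y ∨ d = s → ∀ d', d' = y' ∨ d' = star y' ∨ d' = s' ∨ d' = star s' →
        Commute d' d ∧ Commute d' (star d) := by
      intro d hd d' hd'
      rcases hd' with rfl | rfl | rfl | rfl
      · exact ⟨(hc d hd _ (.inl rfl)).1.symm, by simpa using (hc d hd _ (.inl rfl)).2.star_star.symm⟩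
      · exact ⟨(hc d hd _ (.inl rfl)).2.symm, (hc d hd _ (.inl rfl)).1.star_star.symm⟩
      · exact ⟨(hc d hd _ (.inr rfl)).1.symm, by simpa using (hc d hd _ (.inr rfl)).2.star_star.symm⟩
      · exact ⟨(hc d hd _ (.inr rfl)).2.symm, (hc d hd _ (.inr rfl)).1.star_star.symm⟩
    have h2 : ∀ d, d = y ∨ d = s → Commute b d ∧ Commute b (star d) := fun d hd =>
      ⟨mem h' b hb d (h1 d hd _ (by simp)).1 (h1 d hd _ (by simp)).1 (h1 d hd _ (by simp)).1
          (h1 d hd _ (by simp)).1,
        mem h' b hb (star d) (h1 d hd _ (by simp)).2 (h1 d hd _ (by simp)).2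
          (h1 d hd _ (by simp)).2 (h1 d hd _ (by simp)).2⟩
    rcases hc' with rfl | rfl | rfl | rfl
    · exact ⟨(h2 _ (.inl rfl)).1.symm, by simpa using (h2 _ (.inl rfl)).2.star_star.symm⟩
    · exact ⟨(h2 _ (.inl rfl)).2.symm, (h2 _ (.inl rfl)).1.star_star.symm⟩
    · exact ⟨(h2 _ (.inr rfl)).1.symm, by simpa using (h2 _ (.inr rfl)).2.star_star.symm⟩
    · exact ⟨(h2 _ (.inr rfl)).2.symm, (h2 _ (.inr rfl)).1.star_star.symm⟩
  exact ⟨mem h a ha b (key _ (by simp)).1 (key _ (by simp)).1 (key _ (by simp)).1
      (key _ (by simp)).1,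
    mem h a ha (star b) (key _ (by simp)).2 (key _ (by simp)).2 (key _ (by simp)).2
      (key _ (by simp)).2⟩

/-- Commuting pairs give a site. -/
theorem exists_site {G : Type u} [CStarAlgebra G] [PartialOrder G] [StarOrderedRing G] (K : ℕ)
    (y s : Fin (3 * (K * 3) + 1) → G) (h : ∀ i, DropRelations (y i) (s i))
    (hc : CommPairs y s) : Nonempty (Site G (Fin (3 * (K * 3) + 1) → Fin 3) K) := by
  obtain ⟨X, P, r, T, hX, rsum, rorth, rtop, Tsum, Ttop, Tr⟩ :=
    exists_slots (by norm_num : 0 < 3) K rfl (fun i => dropWitness (h i))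
      (fun i j hij => dropWitness_commute (h i) (h j) (hc i j hij))
  set A : G := star X * X with hA
  have hA0 : 0 ≤ A := star_mul_self_nonneg X
  have hP : IsSelfAdjoint P := hX.self
  set z₀ : G := cfc Real.sqrt A with hz
  set g : G := cfc Real.sqrt P with hg
  have zs : star z₀ = z₀ := (cfc_predicate (p := IsSelfAdjoint) _ _).star_eq
  have gs : star g = g := (cfc_predicate (p := IsSelfAdjoint) _ _).star_eq
  have sq : ∀ c : G, 0 ≤ c → cfc Real.sqrt c * cfc Real.sqrt c = c := fun c hc0 => by
    rw [← cfc_mul Real.sqrt Real.sqrt c]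
    conv_rhs => rw [← cfc_id' ℝ c (IsSelfAdjoint.of_nonneg hc0)]
    exact cfc_congr (fun t ht => Real.mul_self_sqrt (spectrum_nonneg_of_nonneg hc0 ht))
  have zz : z₀ * z₀ = A := sq A hA0
  have gg : g * g = P := sq P hX.nonneg
  have PX' : Commute P (star X) := by
    have := hX.comm.star_star; rwa [hP.star_eq] at this
  have gX : Commute g X := hX.comm.cfc_real _
  have gX' : Commute g (star X) := PX'.cfc_real _
  have gz : Commute g z₀ := ((gX'.mul_right gX).symm.cfc_real _).symm
  have zX : z₀ * X = 0 := by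
    refine (CStarRing.star_mul_self_eq_zero_iff _).1 ?_
    rw [star_mul, zs, mul_assoc, ← mul_assoc z₀ z₀, zz, hA, mul_assoc (star X) X X, hX.sq,
      mul_zero, mul_zero]
  have Xz : star X * z₀ = 0 := by
    have := congrArg star zX; rwa [star_mul, zs, star_zero] at this
  set a : G := sumSq X with ha
  have ga : g * a = g := by
    rw [← sub_eq_zero]
    refine (CStarRing.star_mul_self_eq_zero_iff _).1 ?_
    have h1 : P * (a - 1) = 0 := by rw [mul_sub, mul_one, ha, sub_eq_zero]; exact hX.absorb
    rw [show g * a - g = g * (a - 1) by rw [mul_sub, mul_one], star_mul, gs, mul_assoc,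
      ← mul_assoc g g, gg, h1, mul_zero]
  have asum : ∑ c, star (![z₀, star X] c) * ![z₀, star X] c = a := by
    rw [Fin.sum_univ_two]
    simp only [Matrix.cons_val_zero, Matrix.cons_val_one, zs, zz, star_star]
    rw [ha, sumSq, hA]
  have ea : ∀ c, star X * c = 0 → g * (A * c) = g * c := fun c hc0 => by
    rw [show A * c = a * c by rw [ha, sumSq, add_mul, ← hA, mul_assoc X, hc0, mul_zero, add_zero],
      ← mul_assoc, ga]
  have gA : Commute g A := gX'.mul_right gX
  refine ⟨{ z := ![z₀, star X], e := A, g := g, s := r, T := T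
            mul_star := ?_, g_self := gs
            g_comm := ?_, sum_le := by rw [asum]; exact hX.norm_le
            absorb := by rw [asum]; exact ga
            top_z := ?_, top_s := rtop, top_T := Ttop
            s_sum := fun k => by rw [rsum k, gg]
            s_orth := rorth, T_sum := Tsum, T_s := Tr }⟩
  · intro b c
    fin_cases b <;> fin_cases c <;> simp [zs, zz, zX, Xz, hA]
  · intro c; fin_cases c
    exacts [gz, gX']
  · intro c
    rw [← mul_assoc, ← gA.eq, mul_assoc]
    refine ea _ ?_
    fin_cases c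
    · exact Xz
    · exact star_sq hX.sq

theorem map_le {A B : Type*} [CStarAlgebra A] {_ : PartialOrder A} [StarOrderedRing A]
    [CStarAlgebra B] [PartialOrder B] [StarOrderedRing B] (φ : A →⋆ₐ[ℂ] B) {a b : A}
    (h : a ≤ b) : φ a ≤ φ b :=
  OrderHomClass.mono φ h

/-- The site of one group of pairs, as elements of the commuting subalgebras. -/
theorem exists_sites {F : Type u} [CStarAlgebra F] [PartialOrder F] [StarOrderedRing F]
    (y s : ℕ → F) (h : ∀ k, DropRelations (y k) (s k)) (hc : CommPairs y s) :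
    ∃ D : ℕ → StarSubalgebra ℂ F,
      (∀ k l, k ≠ l → ∀ a ∈ D k, ∀ b ∈ D l, Commute a b) ∧
      ∀ l K, ∃ S : Site F (Fin (3 * (K * 3) + 1) → Fin 3) K,
        (∀ c, S.z c ∈ D l) ∧ S.e ∈ D l ∧ S.g ∈ D l ∧ (∀ k, S.s k ∈ D l) ∧ ∀ i, S.T i ∈ D l := by
  classical
  let Ps : ℕ → Set F := fun l => {a | ∃ j, a = y (Nat.pair l j) ∨ a = s (Nat.pair l j)}
  let D : ℕ → StarSubalgebra ℂ F := fun l => (StarAlgebra.adjoin ℂ (Ps l)).topologicalClosure
  have hsub : ∀ l, Ps l ⊆ D l := fun l => (StarAlgebra.subset_adjoin ℂ _).trans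
    (StarSubalgebra.le_topologicalClosure _)
  have hgen : ∀ {k l}, k ≠ l → ∀ a ∈ Ps k, ∀ b ∈ Ps l, Commute a b ∧ Commute a (star b) := by
    rintro k l hkl a ⟨i, ha⟩ b ⟨j, hb⟩
    exact hc _ _ (fun e => hkl (Nat.pair_eq_pair.1 e).1) a ha b hb
  have hclosed : ∀ X : Set F, IsClosed (StarSubalgebra.centralizer ℂ X : Set F) := fun X => by
    rw [StarSubalgebra.coe_centralizer]; exact Set.isClosed_centralizer _
  have h1 : ∀ {k l}, l ≠ k → ∀ x ∈ D k, ∀ b ∈ Ps l, Commute b x ∧ Commute (star b) x := by
    intro k l hlk x hx b hb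
    have hle : D k ≤ StarSubalgebra.centralizer ℂ (Ps l) :=
      StarSubalgebra.topologicalClosure_minimal (StarAlgebra.adjoin_le fun a ha => by
        rw [SetLike.mem_coe, StarSubalgebra.mem_centralizer_iff ℂ]
        exact fun b hb => ⟨(hgen hlk b hb a ha).1.eq,
          (hgen (Ne.symm hlk) a ha b hb).2.symm.eq⟩) (hclosed _)
    exact (StarSubalgebra.mem_centralizer_iff ℂ).1 (hle hx) b hb
  have h2 : ∀ k l, k ≠ l → ∀ a ∈ D k, ∀ b ∈ D l, Commute a b := by
    intro k l hkl a ha b hb
    have hle : D l ≤ StarSubalgebra.centralizer ℂ (D k : Set F) :=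
      StarSubalgebra.topologicalClosure_minimal (StarAlgebra.adjoin_le fun c hc' => by
        rw [SetLike.mem_coe, StarSubalgebra.mem_centralizer_iff ℂ]
        exact fun x hx => ⟨((h1 (Ne.symm hkl) x hx c hc').1).symm.eq,
          ((h1 (Ne.symm hkl) (star x) (star_mem hx) c hc').1).symm.eq⟩) (hclosed _)
    exact ((StarSubalgebra.mem_centralizer_iff ℂ).1 (hle hb) a ha).1
  refine ⟨D, h2, fun l K => ?_⟩
  let := StarSubalgebra.cstarAlgebra (D l) (h_closed := StarSubalgebra.isClosed_topologicalClosure _)
  letI po : PartialOrder (D l) := CStarAlgebra.spectralOrder (D l)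
  haveI sor : StarOrderedRing (D l) := CStarAlgebra.spectralOrderedRing (D l)
  obtain ⟨S⟩ := exists_site (G := D l) K
    (fun i => ⟨y (Nat.pair l i), hsub l ⟨i, .inl rfl⟩⟩)
    (fun i => ⟨s (Nat.pair l i), hsub l ⟨i, .inr rfl⟩⟩)
    (fun i => ⟨Subtype.ext (h _).1, Subtype.ext (h _).2.1, Subtype.ext (h _).2.2⟩)
    (fun i j hij a ha b hb => by
      have := hc (Nat.pair l i) (Nat.pair l j)
        (fun e => hij (Fin.ext (Nat.pair_eq_pair.1 e).2)) a.1
        (ha.imp (fun e => by rw [e]) (fun e => by rw [e])) b.1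
        (hb.imp (fun e => by rw [e]) (fun e => by rw [e]))
      exact ⟨Subtype.ext this.1, Subtype.ext this.2⟩)
  let ι := (D l).subtype
  refine ⟨{ z := fun c => ι (S.z c), e := ι S.e, g := ι S.g, s := fun k => ι (S.s k)
            T := fun i => ι (S.T i)
            mul_star := fun a b => by
              rw [← map_star, ← map_mul, S.mul_star, apply_ite ι, map_zero]
            g_self := by rw [← map_star, S.g_self]
            g_comm := fun c => (S.g_comm c).map ι
            sum_le := by simpa only [map_sum, map_mul, map_star, map_one] using map_le ι S.sum_le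
            absorb := by simpa only [map_sum, map_mul, map_star] using congrArg ι S.absorb
            top_z := fun c => by simpa only [map_mul] using congrArg ι (S.top_z c)
            top_s := fun k => by simpa only [map_mul] using congrArg ι (S.top_s k)
            top_T := fun i => by simpa only [map_mul] using congrArg ι (S.top_T i)
            s_sum := fun k => by
              simpa only [map_mul, map_star, map_sub, map_one] using congrArg ι (S.s_sum k)
            s_orth := fun k k' hkk => by
              simpa only [map_mul, map_star, map_zero] using congrArg ι (S.s_orth k k' hkk)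
            T_sum := by simpa only [map_sum, map_mul, map_star, map_one] using congrArg ι S.T_sum
            T_s := fun i k => by
              simpa only [map_mul, map_star, map_zero] using congrArg ι (S.T_s i k) },
    fun c => (S.z c).2, S.e.2, S.g.2, fun k => (S.s k).2, fun i => (S.T i).2⟩

end Vale.Agent.P101.DropN
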