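import Vale.Agent.P101.Drop
import Vale.Agent.P101.DropN.Defs

/-!
P101, DropN: many commuting copies of one full square-zero element give any number of orthogonal
slots below the top of the tree, and a partition of one below the top orthogonal to all of them.
The proof follows `dropPin`, the components carrying a slot number.
-/

namespace Vale.Agent.P101.DropN

universe u

theorem exists_slots {G : Type u} [CStarAlgebra G] [PartialOrder G] [StarOrderedRing G]
    {N : ℕ} (hN : 0 < N) (K : ℕ) {m : ℕ} (hm : m = N * (K * N) + 1)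
    (Ws : Fin m → Witness G 1 N)
    (hWs : ∀ i j, i ≠ j → ∀ a ∈ (Ws i).entries, ∀ b ∈ (Ws j).entries,
      Commute a b ∧ Commute a (star b)) :
    ∃ (X P : G) (s : Fin K → G) (T : (Fin m → Fin N) → G), Gated X P ∧
      (∀ k, star (s k) * s k = 1 - P) ∧ (∀ k l, k ≠ l → star (s k) * s l = 0) ∧
      (∀ k, star X * X * s k = s k) ∧ (∑ i, star (T i) * T i = 1) ∧
      (∀ i, star X * X * T i = T i) ∧ ∀ i k, star (T i) * s k = 0 := by
  classical
  choose x p q e b hleaf hgen hcom using fun i => leafPin G N (Ws i)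
  set L : Fin m → Set G := fun i =>
    {g | g = x i ∨ g = p i ∨ g = q i ∨ g = e i ∨ ∃ v, g = b i v ∨ g = star (b i v)}
  have step : ∀ i j, i ≠ j → ∀ a ∈ (Ws j).entries,
      ∀ g ∈ L i, Commute g a ∧ Commute g (star a) := by
    intro i j hij a ha g hg
    have hyp : ∀ a', a' = a ∨ a' = star a → ∀ c ∈ (Ws i).entries,
        Commute c a' ∧ Commute c (star a') := by
      intro a' h c hc
      obtain ⟨h1, h2⟩ := hWs i j hij c hc a ha
      rcases h with rfl | rfl
      · exact ⟨h1, h2⟩
      · exact ⟨h2, by rwa [star_star]⟩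
    have main : ∀ a', a' = a ∨ a' = star a → ∀ g', (g' = x i ∨ g' = p i ∨ g' = q i ∨ g' = e i ∨
        ∃ v, g' = b i v) → Commute g' a' := by
      intro a' h g' hg'
      obtain ⟨k1, k2, k3, k4, k5⟩ := hcom i a' (hyp a' h)
      rcases hg' with rfl | rfl | rfl | rfl | ⟨v, rfl⟩
      exacts [k1, k2, k3, k4, k5 v]
    rcases hg with rfl | rfl | rfl | rfl | ⟨v, rfl | rfl⟩
    · exact ⟨main a (.inl rfl) _ (.inl rfl), main _ (.inr rfl) _ (.inl rfl)⟩
    · exact ⟨main a (.inl rfl) _ (by simp), main _ (.inr rfl) _ (by simp)⟩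
    · exact ⟨main a (.inl rfl) _ (by simp), main _ (.inr rfl) _ (by simp)⟩
    · exact ⟨main a (.inl rfl) _ (by simp), main _ (.inr rfl) _ (by simp)⟩
    · exact ⟨main a (.inl rfl) _ (by simp), main _ (.inr rfl) _ (by simp)⟩
    · exact ⟨by simpa using (main _ (.inr rfl) (b i v) (by simp)).star_star,
        by simpa using (main _ (.inl rfl) (b i v) (by simp)).star_star⟩
  have cross : ∀ i j, i ≠ j → ∀ g ∈ L i, ∀ g' ∈ L j, Commute g g' ∧ Commute g (star g') := by
    intro i j hij g hg
    have hyp : ∀ a ∈ (Ws j).entries, Commute a g ∧ Commute a (star g) := fun a ha =>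
      ⟨(step i j hij a ha g hg).1.symm,
        by simpa using (step i j hij a ha g hg).2.star_star.symm⟩
    have hyp' : ∀ a ∈ (Ws j).entries, Commute a (star g) ∧ Commute a (star (star g)) := fun a ha =>
      ⟨(hyp a ha).2, by rw [star_star]; exact (hyp a ha).1⟩
    obtain ⟨k1, k2, k3, k4, k5⟩ := hcom j g hyp
    obtain ⟨l1, l2, l3, l4, l5⟩ := hcom j (star g) hyp'
    intro g' hg'
    rcases hg' with rfl | rfl | rfl | rfl | ⟨v, rfl | rfl⟩
    · exact ⟨k1.symm, by simpa using l1.star_star.symm⟩
    · exact ⟨k2.symm, by simpa using l2.star_star.symm⟩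
    · exact ⟨k3.symm, by simpa using l3.star_star.symm⟩
    · exact ⟨k4.symm, by simpa using l4.star_star.symm⟩
    · exact ⟨(k5 v).symm, by simpa using (l5 v).star_star.symm⟩
    · exact ⟨by simpa using (l5 v).star_star.symm, by rw [star_star]; exact (k5 v).symm⟩
  have mx : ∀ i, x i ∈ L i := fun i => Or.inl rfl
  have mp : ∀ i, p i ∈ L i := fun i => Or.inr (Or.inl rfl)
  have mq : ∀ i, q i ∈ L i := fun i => Or.inr (Or.inr (Or.inl rfl))
  have me : ∀ i, e i ∈ L i := fun i => Or.inr (Or.inr (Or.inr (Or.inl rfl)))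
  have mb : ∀ i v, b i v ∈ L i := fun i v => Or.inr (Or.inr (Or.inr (Or.inr ⟨v, Or.inl rfl⟩)))
  have sites : Sites x p :=
    { gated := fun i => (hleaf i).toGated
      cx := fun i j h => (cross i j h _ (mx i) _ (mx j)).1
      cx' := fun i j h => (cross i j h _ (mx i) _ (mx j)).2
      cpx := fun i j h => (cross i j h _ (mp i) _ (mx j)).1
      cp := fun i j h => (cross i j h _ (mp i) _ (mp j)).1 }
  obtain ⟨hT, hTc, hinv, htop⟩ := tree_spec sites
  set X := (tree x p).1 with hX
  set P := (tree x p).2 with hP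
  have qs : ∀ i, star (q i) = q i := fun i => (IsSelfAdjoint.of_nonneg (hleaf i).q_nonneg).star_eq
  have eq0 : ∀ i, e i * q i = 0 := fun i => by
    have := congrArg star (hleaf i).q_e
    rwa [star_mul, qs, (hleaf i).e_self, star_zero] at this
  have qp : ∀ i, q i * p i = 0 := fun i => by
    have := congrArg star (hleaf i).p_q
    rwa [star_mul, qs, (hleaf i).toGated.self, star_zero] at this
  -- the leftover
  set r : G := 1 - P with hr
  have hr0 : 0 ≤ r := sub_nonneg.2 hT.le_one
  have rq : ∀ i, r * q i = r := by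
    intro i
    have h1 : P * (1 - q i) = 1 - q i := by
      refine hinv i _ (hleaf i).q_absorb (fun k => ?_)
      by_cases hk : k = i
      · subst hk
        have hq := (hleaf k).q_comm
        have hq' : Commute (q k) (star (x k)) := by
          have := hq.star_star; rwa [qs] at this
        exact ⟨(Commute.one_right _).sub_right hq.symm, (Commute.one_right _).sub_right hq'.symm,
          (Commute.one_right _).sub_right ((hleaf k).p_q.trans (qp k).symm)⟩
      · have c1 := cross k i hk _ (mx k) _ (mq i)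
        have c2 := cross k i hk _ (mp k) _ (mq i)
        exact ⟨(Commute.one_right _).sub_right c1.1,
          (Commute.one_right _).sub_right (by simpa [qs] using c1.2.star_star),
          (Commute.one_right _).sub_right c2.1⟩
    have h2 : r * (1 - q i) = 0 := by rw [hr, sub_mul, one_mul, h1, sub_self]
    rwa [mul_sub, mul_one, sub_eq_zero, eq_comm] at h2
  set Q : G := prodF q with hQ
  have rQ : r * Q = r := mul_prodF_absorb rq
  have qq : ∀ i j, i ≠ j → Commute (q i) (q j) := fun i j h => (cross i j h _ (mq i) _ (mq j)).1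
  have Qs : star Q = Q := by
    rw [hQ, prodF_star qq]; exact congrArg prodF (funext qs)
  -- the components
  let vl : Finset (Fin m) → ℕ := fun S => (S.card - 1) % N
  let F : Finset (Finset (Fin m)) := Finset.univ.filter (fun S => 1 ≤ S.card ∧ S.card ≤ K * N)
  let Fk : Fin K → Finset (Finset (Fin m)) := fun k =>
    F.filter (fun S => (S.card - 1) / N = k)
  let gS : Finset (Fin m) → Fin m → G := fun S i => if i ∈ S then e i else q i
  let hS : Finset (Fin m) → Fin m → G := fun S i =>
    if h : i ∈ S ∧ vl S < N then b i ⟨vl S, h.2⟩ * q i else 1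
  let fS : Finset (Fin m) → Fin m → G := fun S i => gS S i * hS S i
  have gmem : ∀ S i, gS S i = e i ∨ gS S i = q i := fun S i => by
    by_cases h : i ∈ S <;> simp [gS, h]
  have cgS : ∀ S i g, (∀ g' ∈ L i, Commute g g') → Commute g (gS S i) := fun S i g hg => by
    rcases gmem S i with h | h <;> rw [h]
    · exact hg _ (me i)
    · exact hg _ (mq i)
  have chS : ∀ S i g, (∀ g' ∈ L i, Commute g g') → Commute g (hS S i) := fun S i g hg => by
    by_cases h : i ∈ S ∧ vl S < N
    · simp only [hS, dif_pos h]; exact (hg _ (mb i _)).mul_right (hg _ (mq i))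
    · simp only [hS, dif_neg h]; exact Commute.one_right g
  have cfS : ∀ S i g, (∀ g' ∈ L i, Commute g g') → Commute g (fS S i) := fun S i g hg =>
    (cgS S i g hg).mul_right (chS S i g hg)
  have cfS' : ∀ S i g, (∀ g' ∈ L i, Commute g g' ∧ Commute g (star g')) →
      Commute g (star (fS S i)) := fun S i g hg => by
    have : Commute (star g) (fS S i) := cfS S i _ (fun g' h' => by
      simpa using (hg g' h').2.star_star)
    simpa using this.star_star
  let WS : Finset (Fin m) → G := fun S => prodF (fS S)
  have cgh : ∀ S i j, i ≠ j → Commute (hS S i) (gS S j) := fun S i j hij =>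
    cgS S j _ (fun g' hg' => (chS S i g' (fun g'' hg'' =>
      (cross i j hij g'' hg'' g' hg').1.symm)).symm)
  have cff : ∀ S S' i j, i ≠ j → Commute (fS S i) (fS S' j) := fun S S' i j hij =>
    cfS S' j _ (fun g' hg' => (cfS S i g' (fun g'' hg'' =>
      (cross i j hij g'' hg'' g' hg').1.symm)).symm)
  have cff' : ∀ S S' i j, i ≠ j → Commute (star (fS S i)) (fS S' j) := fun S S' i j hij =>
    cfS S' j _ (fun g' hg' => (cfS' S i g' (fun g'' hg'' => by
      obtain ⟨a1, a2⟩ := cross i j hij g'' hg'' g' hg'
      exact ⟨a1.symm, by simpa using a2.star_star.symm⟩)).symm)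
  -- top of the tree
  have topW : ∀ S ∈ F, star X * X * WS S = WS S := by
    intro S hS'
    have hne : S.Nonempty := Finset.card_pos.1 (Finset.mem_filter.1 hS').2.1
    have hW : WS S = prodF (gS S) * prodF (hS S) := prodF_mul (cgh S)
    have hoff : ∀ i k, k ≠ i → ∀ g ∈ L i, Commute g (gS S k) := fun i k hk g hg =>
      cgS S k g (fun g' h' => (cross i k (Ne.symm hk) g hg g' h').1)
    have t := (htop (prodF (gS S)) S hne (fun i hi => ⟨?_, ?_⟩) (fun i hi => ?_)).2
    · rw [hW, ← mul_assoc, t]
    · rw [mul_prodF_site (b := (1:G)) i (fun k hk => hoff i k hk _ (mp i))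
        (by simp [gS, hi, (hleaf i).p_e]) (fun k _ => Commute.one_left _), one_mul]
    · rw [mul_prodF_site (b := (1:G)) i (fun k hk => Commute.mul_left ?_ (hoff i k hk _ (mx i)))
        (by simp [gS, hi, (hleaf i).top]) (fun k _ => Commute.one_left _), one_mul]
      exact (cgS S k _ (fun g' h' => by
        simpa using (cross i k (Ne.symm hk) _ (mx i) g' h').2.star_star))
    · rw [mul_prodF_site (b := (0:G)) i (fun k hk => hoff i k hk _ (mp i))
        (by simp [gS, hi, (hleaf i).p_q]) (fun k _ => Commute.zero_left _), zero_mul]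
  have orth : ∀ S ∈ F, ∀ S' ∈ F, S ≠ S' → star (WS S) * WS S' = 0 := by
    intro S hSF S' hSF' hne
    rw [prodF_star (cff S S), ← prodF_mul (fun i j hij => (cff' S S' j i (Ne.symm hij)).symm)]
    obtain ⟨i, hi⟩ : ∃ i, ¬ (i ∈ S ↔ i ∈ S') := by
      by_contra hh; push_neg at hh; exact hne (Finset.ext hh)
    refine prodF_eq_zero _ i ?_
    by_cases hiS : i ∈ S
    · have hiS' : i ∉ S' := fun h => hi ⟨fun _ => h, fun _ => hiS⟩
      simp only [fS, gS, hiS, hiS', if_true, if_false]
      rw [show hS S' i = 1 from dif_neg (fun h => hiS' h.1), mul_one, star_mul, (hleaf i).e_self,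
        mul_assoc, eq0, mul_zero]
    · have hiS' : i ∈ S' := by by_contra h; exact hi ⟨fun h' => absurd h' hiS, fun h' => absurd h' h⟩
      simp only [fS, gS, hiS, hiS', if_true, if_false]
      rw [show hS S i = 1 from dif_neg (fun h => hiS h.1), mul_one, qs, ← mul_assoc, (hleaf i).q_e,
        zero_mul]
  let V : Fin K → G := fun k => ∑ S ∈ Fk k, WS S
  have mF : ∀ {k S}, S ∈ Fk k → S ∈ F := fun hS => (Finset.mem_filter.1 hS).1
  have hVV : ∀ k, star (V k) * V k = ∑ S ∈ Fk k, star (WS S) * WS S := fun k => by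
    simp only [V]
    rw [star_sum, Finset.sum_mul_sum]
    refine Finset.sum_congr rfl (fun S hS1 => ?_)
    exact Finset.sum_eq_single S (fun S' hS2 hne => orth S (mF hS1) S' (mF hS2) (Ne.symm hne))
      (fun h => absurd hS1 h)
  have Vorth : ∀ k l, k ≠ l → star (V k) * V l = 0 := fun k l hkl => by
    simp only [V]
    rw [star_sum, Finset.sum_mul_sum]
    refine Finset.sum_eq_zero fun S hS1 => Finset.sum_eq_zero fun S' hS2 => ?_
    refine orth S (mF hS1) S' (mF hS2) fun hSS => hkl (Fin.ext ?_)
    rw [← (Finset.mem_filter.1 hS1).2, hSS, (Finset.mem_filter.1 hS2).2]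
  -- the partition of Q^2
  let tI : (Fin m → Fin N) → Fin m → G := fun ι i => e i * b i (ι i) * q i
  have tcomm : ∀ ι i j, i ≠ j → Commute (tI ι i) (tI ι j) := fun ι i j hij => by
    have h0 : ∀ g ∈ L i, Commute g (tI ι j) := fun g hg =>
      (((cross i j hij g hg _ (me j)).1).mul_right (cross i j hij g hg _ (mb j _)).1).mul_right
        (cross i j hij g hg _ (mq j)).1
    exact (((h0 _ (me i))).mul_left (h0 _ (mb i _))).mul_left (h0 _ (mq i))
  have tcomm' : ∀ ι i j, i ≠ j → Commute (star (tI ι i)) (tI ι j) := fun ι i j hij => by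
    have h0 : ∀ g ∈ L i, Commute (star g) (tI ι j) := fun g hg => by
      have k : ∀ g' ∈ L j, Commute (star g) g' := fun g' h' => by
        simpa using (cross i j hij g hg g' h').2.star_star
      exact ((k _ (me j)).mul_right (k _ (mb j _))).mul_right (k _ (mq j))
    simp only [tI, star_mul]
    exact (h0 _ (mq i)).mul_left ((h0 _ (mb i _)).mul_left (h0 _ (me i)))
  have hQQ : Q * Q = ∑ ι, star (prodF (tI ι)) * prodF (tI ι) := by
    have e1 : ∀ i, q i * q i = ∑ v, star (e i * b i v * q i) * (e i * b i v * q i) := by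
      intro i
      calc q i * q i = q i * (∑ v, star (b i v) * e i * e i * b i v) * q i := by
            rw [hgen i, mul_one]
        _ = _ := by
            rw [Finset.mul_sum, Finset.sum_mul]
            refine Finset.sum_congr rfl (fun v _ => ?_)
            simp only [star_mul, qs, (hleaf i).e_self, mul_assoc]
    rw [hQ, ← prodF_mul (fun i j hij => qq i j hij), funext e1, prodF_sum]
    refine Finset.sum_congr rfl (fun ι _ => ?_)
    rw [prodF_star (tcomm ι), ← prodF_mul (fun i j hij => (tcomm' ι j i (Ne.symm hij)).symm)]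
  have hbound : ∀ (k : Fin K) (ι : Fin m → Fin N), ∃ C : ℝ,
      star (prodF (tI ι)) * prodF (tI ι) ≤ C • (star (V k) * V k) := by
    intro k ι
    have hk : ((k : ℕ) + 1) * N ≤ K * N := Nat.mul_le_mul_right N k.2
    rw [Nat.succ_mul] at hk
    obtain ⟨v, hv⟩ : ∃ v : Fin N, K * N < (Finset.univ.filter (fun i => ι i = v)).card := by
      by_contra hh
      push_neg at hh
      have h1 := Finset.card_eq_sum_card_fiberwise (s := (Finset.univ : Finset (Fin m))) (f := ι)
        (t := Finset.univ) (fun i _ => Finset.mem_univ _)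
      have h2 : (∑ v : Fin N, (Finset.univ.filter (fun i => ι i = v)).card) ≤ ∑ _v : Fin N, K * N :=
        Finset.sum_le_sum (fun v _ => hh v)
      simp [hm] at h1 h2
      omega
    have hv2 := v.2
    obtain ⟨S, hSsub, hScard⟩ := Finset.exists_subset_card_eq
      (s := Finset.univ.filter (fun i => ι i = v)) (n := (k : ℕ) * N + (v : ℕ) + 1) (by omega)
    have hSF : S ∈ Fk k := Finset.mem_filter.2 ⟨Finset.mem_filter.2 ⟨Finset.mem_univ _, by omega,
      by omega⟩, by
        rw [hScard, Nat.add_sub_cancel, add_comm, Nat.add_mul_div_right _ _ hN,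
          Nat.div_eq_of_lt hv2, zero_add]⟩
    have hvl : vl S = (v : ℕ) := by
      simp only [vl]
      rw [hScard, Nat.add_sub_cancel, add_comm, Nat.add_mul_mod_self_right, Nat.mod_eq_of_lt hv2]
    let h1 : Fin m → G := fun i => if i ∈ S then 1 else e i * b i (ι i)
    have e1 : tI ι = fun i => h1 i * fS S i := by
      funext i
      by_cases hi : i ∈ S
      · have hlt : vl S < N := by rw [hvl]; exact v.2
        have hιv : (⟨vl S, hlt⟩ : Fin N) = ι i := by
          have := (Finset.mem_filter.1 (hSsub hi)).2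
          rw [this]; exact Fin.ext hvl
        simp [tI, h1, fS, gS, hS, hi, hlt, hιv, mul_assoc]
      · simp [tI, h1, fS, gS, hS, hi]
    have ch1 : ∀ i j, i ≠ j → Commute (fS S i) (h1 j) := fun i j hij => by
      have k : ∀ g ∈ L j, Commute (fS S i) g := fun g hg =>
        (cfS S i g (fun g' h' => (cross i j hij g' h' g hg).1.symm)).symm
      by_cases hj : j ∈ S
      · simp [h1, hj]
      · simp only [h1, hj, if_false]; exact (k _ (me j)).mul_right (k _ (mb j _))
    refine ⟨‖star (prodF h1) * prodF h1‖, ?_⟩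
    rw [e1, prodF_mul ch1, star_mul, mul_assoc, ← mul_assoc (star (prodF h1)), ← mul_assoc]
    refine le_trans (star_left_conjugate_le_conjugate
      (IsSelfAdjoint.le_algebraMap_norm_self (.star_mul_self (prodF h1))) _) ?_
    rw [Algebra.algebraMap_eq_smul_one, mul_smul_comm, mul_one, smul_mul_assoc]
    refine smul_le_smul_of_nonneg_left ?_ (norm_nonneg _)
    rw [hVV]
    exact Finset.single_le_sum (f := fun S => star (WS S) * WS S)
      (fun S _ => star_mul_self_nonneg _) hSF
  choose Kb hKb using hbound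
  let C : Fin K → ℝ := fun k => max 1 (∑ ι, max (Kb k ι) 0)
  have hC0 : ∀ k, 0 ≤ C k := fun k => zero_le_one.trans (le_max_left _ _)
  have hQV : ∀ k, Q * Q ≤ C k • (star (V k) * V k) := fun k => by
    rw [hQQ]
    refine le_trans (Finset.sum_le_sum (g := fun ι => max (Kb k ι) 0 • (star (V k) * V k))
      (fun ι _ => le_trans (hKb k ι)
        (smul_le_smul_of_nonneg_right (le_max_left _ _) (star_mul_self_nonneg (V k))))) ?_
    rw [← Finset.sum_smul]
    exact smul_le_smul_of_nonneg_right (le_max_right _ _) (star_mul_self_nonneg (V k))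
  -- the polar part
  set a : G := cfc Real.sqrt r with ha
  have hrs : IsSelfAdjoint r := .of_nonneg hr0
  have has : IsSelfAdjoint a := cfc_predicate _ _
  have haa : a * a = r := by
    rw [ha, ← cfc_mul Real.sqrt Real.sqrt r]
    conv_rhs => rw [← cfc_id' ℝ r hrs]
    exact cfc_congr (fun t ht => Real.mul_self_sqrt (spectrum_nonneg_of_nonneg hr0 ht))
  have aQ : a * Q = a := by
    rw [← sub_eq_zero]
    refine (CStarRing.star_mul_self_eq_zero_iff _).1 ?_
    have h : r * (Q - 1) = 0 := by rw [mul_sub, rQ, mul_one, sub_self]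
    calc star (a * Q - a) * (a * Q - a) = (Q - 1) * (r * (Q - 1)) := by
          rw [← haa, star_sub, star_mul, Qs, has.star_eq]; noncomm_ring
      _ = 0 := by rw [h, mul_zero]
  have Qa : Q * a = a := by
    have := congrArg star aQ
    rwa [star_mul, Qs, has.star_eq] at this
  let w : Fin K → G := fun k => Real.sqrt (C k) • (V k * a)
  have hle : ∀ k, a * a ≤ star (w k) * w k := by
    intro k
    have h1 := star_left_conjugate_le_conjugate (hQV k) a
    have e1 : star a * (Q * Q) * a = a * a := by
      rw [has.star_eq, ← mul_assoc, aQ, mul_assoc, Qa]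
    have e2 : star (w k) * w k = star a * (C k • (star (V k) * V k)) * a := by
      simp only [w]
      rw [star_smul, star_trivial, smul_mul_smul_comm, Real.mul_self_sqrt (hC0 k), star_mul,
        mul_smul_comm, smul_mul_assoc]
      simp only [mul_assoc]
    rw [e2, ← e1]; exact h1
  choose s hs1 hs2 using fun k => exists_polar has (hle k)
  -- a fixer: what kills `V k` kills `s k`
  have kill : ∀ (A : G) k, A * V k = 0 → A * s k = 0 := fun A k hA => by
    have h := hs2 k (1 - A) (by
      simp only [w, sub_mul, one_mul, mul_smul_comm]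
      rw [← mul_assoc, hA, zero_mul, sub_zero])
    rwa [sub_mul, one_mul, sub_eq_self] at h
  have sorth : ∀ k l, k ≠ l → star (s k) * s l = 0 := fun k l hkl => by
    have h1 : star (V l) * s k = 0 := kill _ k (Vorth l k (Ne.symm hkl))
    have h2 : star (s k) * V l = 0 := by simpa using congrArg star h1
    exact kill _ l h2
  -- the partition of one
  let fT : (Fin m → Fin N) → Fin m → G := fun ι i => e i * b i (ι i)
  have coff : ∀ ι i g, (∀ g' ∈ L i, Commute g g') → Commute g (fT ι i) := fun ι i g hg =>
    (hg _ (me i)).mul_right (hg _ (mb i _))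
  have ctt : ∀ ι ι' i j, i ≠ j → Commute (fT ι i) (fT ι' j) := fun ι ι' i j hij =>
    coff ι' j _ (fun g' hg' => (coff ι i g' (fun g'' hg'' =>
      (cross i j hij g'' hg'' g' hg').1.symm)).symm)
  have ctt' : ∀ ι i j, i ≠ j → ∀ g ∈ L i, Commute (star g) (fT ι j) := fun ι i j hij g hg =>
    coff ι j _ (fun g' hg' => by simpa using (cross i j hij g hg g' hg').2.star_star)
  have cts : ∀ ι i j, i ≠ j → ∀ g, (∀ g' ∈ L j, Commute g g') → (∀ g' ∈ L j, Commute g (star g')) →
      Commute (star (fT ι j)) g := fun ι i j hij g h1 h2 => by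
    simp only [fT, star_mul]
    exact ((h2 _ (mb j _)).mul_right (h2 _ (me j))).symm
  have Tsum : ∑ ι, star (prodF (fT ι)) * prodF (fT ι) = 1 := by
    have e1 : ∀ i, (1 : G) = ∑ v, star (e i * b i v) * (e i * b i v) := fun i => by
      rw [← hgen i]
      refine Finset.sum_congr rfl (fun v _ => ?_)
      simp only [star_mul, (hleaf i).e_self, mul_assoc]
    have e2 : prodF (fun _ : Fin m => (1 : G)) = 1 := by simp [prodF]
    rw [← e2, funext e1, prodF_sum]
    refine Finset.sum_congr rfl (fun ι _ => ?_)
    rw [prodF_star (ctt ι ι), ← prodF_mul (f := fun i => star (fT ι i)) (fun i j hij => ?_)]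
    exact (cts ι i j hij _ (fun g' hg' => (coff ι i g' (fun g'' hg'' =>
      (cross i j hij g'' hg'' g' hg').1.symm)).symm) (fun g' hg' => (coff ι i _ (fun g'' hg'' =>
        (cross i j hij g'' hg'' g' hg').2.symm)).symm)).symm
  have topT : ∀ ι, star X * X * prodF (fT ι) = prodF (fT ι) := by
    intro ι
    refine (htop (prodF (fT ι)) Finset.univ ⟨⟨0, by omega⟩, Finset.mem_univ _⟩
      (fun i _ => ⟨?_, ?_⟩) (fun i hi => absurd (Finset.mem_univ i) hi)).2
    · rw [mul_prodF_site (b := (1 : G)) i
        (fun k hk => coff ι k _ (fun g' hg' => (cross i k (Ne.symm hk) _ (mp i) g' hg').1))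
        (by simp only [fT]; rw [← mul_assoc, (hleaf i).p_e, one_mul])
        (fun k _ => Commute.one_left _), one_mul]
    · rw [mul_prodF_site (b := (1 : G)) i
        (fun k hk => (ctt' ι i k (Ne.symm hk) _ (mx i)).mul_left
          (coff ι k _ (fun g' hg' => (cross i k (Ne.symm hk) _ (mx i) g' hg').1)))
        (by simp only [fT]; rw [← mul_assoc, (hleaf i).top, one_mul])
        (fun k _ => Commute.one_left _), one_mul]
  have TV : ∀ ι k, star (prodF (fT ι)) * V k = 0 := by
    intro ι k
    simp only [V]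
    rw [Finset.mul_sum]
    refine Finset.sum_eq_zero fun S hSk => ?_
    have hcard : S.card < m := by
      have := (Finset.mem_filter.1 (mF hSk)).2.2
      rcases Nat.eq_zero_or_pos N with h | h
      · omega
      · have := Nat.le_mul_of_pos_left (K * N) h
        omega
    obtain ⟨i, hi⟩ : ∃ i, i ∉ S := by
      by_contra hh
      push_neg at hh
      rw [Finset.eq_univ_of_forall hh] at hcard
      simp at hcard
    rw [prodF_star (ctt ι ι), ← prodF_mul (f := fun i => star (fT ι i)) (fun i j hij => ?_)]
    · refine prodF_eq_zero _ i ?_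
      simp only [fT, fS, gS, hi, if_false]
      rw [show hS S i = 1 from dif_neg (fun h => hi h.1), mul_one, star_mul, (hleaf i).e_self,
        mul_assoc, eq0, mul_zero]
    · exact (cts ι i j hij _ (fun g' hg' => (cfS S i g' (fun g'' hg'' =>
        (cross i j hij g'' hg'' g' hg').1.symm)).symm) (fun g' hg' => (cfS S i _ (fun g'' hg'' =>
          (cross i j hij g'' hg'' g' hg').2.symm)).symm)).symm
  refine ⟨X, P, s, fun ι => prodF (fT ι), hT, fun k => by rw [hs1 k, haa], sorth, fun k => ?_,
    Tsum, topT, fun ι k => kill _ k (TV ι k)⟩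
  refine hs2 k _ ?_
  simp only [w, V]
  rw [mul_smul_comm, ← mul_assoc, Finset.mul_sum,
    Finset.sum_congr rfl (fun S hS => topW S (mF hS))]

end Vale.Agent.P101.DropN
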