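import Vale.Agent.P101.DropN.Sites

/-!
P101, DropN: commuting sites stack to an order zero row of length `2 ^ k` whose defect lies below
the top corner.
-/

namespace Vale.Agent.P101.DropN

variable {F : Type*} [CStarAlgebra F] [PartialOrder F] [StarOrderedRing F]

/-- The data after `k` sites. `R` indexes the copies of the cover of the defect. -/
structure Tower (C : StarSubalgebra ℂ F) (k : ℕ) (R : Type) where
  /-- Index of the partition of one. -/
  M : Type
  /-- Index of the cover of the defect. -/
  A : Type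
  finM : Fintype M
  finA : Fintype A
  /-- The row. -/
  x : (Fin k → Fin 2) → F
  /-- The top element. -/
  e : F
  /-- The gate. -/
  G : F
  /-- The partition of one. -/
  W : M → F
  /-- The cover of the defect. -/
  v : A → R → F
  mem_x : ∀ b, x b ∈ C
  mem_e : e ∈ C
  mem_G : G ∈ C
  mem_W : ∀ i, W i ∈ C
  mem_v : ∀ a r, v a r ∈ C
  mul_star : ∀ a b, x a * star (x b) = if a = b then e else 0
  G_self : star G = G
  G_comm : ∀ b, Commute G (x b)
  sum_le : ∑ b, star (x b) * x b ≤ 1
  absorb : G * ∑ b, star (x b) * x b = G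
  top_x : ∀ b, e * (G * x b) = G * x b
  top_W : ∀ i, e * W i = W i
  top_v : ∀ a r, e * v a r = v a r
  W_sum : ∑ i, star (W i) * W i = 1
  v_sum : ∀ r, ∑ a, star (v a r) * v a r = 1 - G * G
  v_orth : ∀ a r a' r', (a, r) ≠ (a', r') → star (v a r) * v a' r' = 0
  W_v : ∀ i a r, star (W i) * v a r = 0

/-- The elements commuting with all sites from `k` on. -/
def below (D : ℕ → StarSubalgebra ℂ F) (k : ℕ) : StarSubalgebra ℂ F :=
  StarSubalgebra.centralizer ℂ {d | ∃ l, k ≤ l ∧ d ∈ D l}

theorem below_mono (D : ℕ → StarSubalgebra ℂ F) {k : ℕ} {a : F} (h : a ∈ below D k) :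
    a ∈ below D (k + 1) := by
  simp only [below, StarSubalgebra.mem_centralizer_iff ℂ] at h ⊢
  rintro d ⟨l, hl, hd⟩
  exact h d ⟨l, by omega, hd⟩

theorem mem_below {D : ℕ → StarSubalgebra ℂ F}
    (hD : ∀ k l, k ≠ l → ∀ a ∈ D k, ∀ b ∈ D l, Commute a b) {k : ℕ} {a : F} (h : a ∈ D k) :
    a ∈ below D (k + 1) := by
  rw [below, StarSubalgebra.mem_centralizer_iff ℂ]
  rintro d ⟨l, hl, hd⟩
  exact ⟨(hD l k (by omega) d hd a h).eq, (hD l k (by omega) _ (star_mem hd) a h).eq⟩

theorem below_commute {D : ℕ → StarSubalgebra ℂ F} {k : ℕ} {a d : F} (h : a ∈ below D k)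
    (hd : d ∈ D k) : Commute a d :=
  (((StarSubalgebra.mem_centralizer_iff ℂ).1 h) d ⟨k, le_rfl, hd⟩).1.symm

theorem exists_tower (D : ℕ → StarSubalgebra ℂ F)
    (hD : ∀ k l, k ≠ l → ∀ a ∈ D k, ∀ b ∈ D l, Commute a b)
    (hS : ∀ l K, ∃ S : Site F (Fin (3 * (K * 3) + 1) → Fin 3) K,
      (∀ c, S.z c ∈ D l) ∧ S.e ∈ D l ∧ S.g ∈ D l ∧ (∀ k, S.s k ∈ D l) ∧ ∀ i, S.T i ∈ D l) :
    ∀ (k : ℕ) (R : Type) [Fintype R], Nonempty (Tower (below D k) k R) := by
  intro k
  induction k with
  | zero =>
    intro R _
    exact ⟨{ M := Unit, A := Empty, finM := inferInstance, finA := inferInstance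
             x := fun _ => 1, e := 1, G := 1, W := fun _ => 1, v := fun a => a.elim
             mem_x := fun _ => one_mem _, mem_e := one_mem _, mem_G := one_mem _
             mem_W := fun _ => one_mem _, mem_v := fun a => a.elim
             mul_star := fun a b => by rw [if_pos (Subsingleton.elim a b)]; simp
             G_self := star_one F, G_comm := fun _ => Commute.one_left _
             sum_le := by simp, absorb := by simp, top_x := fun _ => by simp
             top_W := fun _ => by simp, top_v := fun a => a.elim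
             W_sum := by simp, v_sum := fun r => by simp
             v_orth := fun a => a.elim, W_v := fun _ a => a.elim }⟩
  | succ k ih =>
    intro R _
    classical
    obtain ⟨T⟩ := ih (Fin 2 × R)
    let := T.finM
    let := T.finA
    obtain ⟨S, mz, me, mg, ms, mT⟩ := hS k (Fintype.card (T.M × R))
    let σ : T.M → R → F := fun i r => S.s (Fintype.equivFin (T.M × R) (i, r))
    have c : ∀ {a d : F}, a ∈ below D k → d ∈ D k → Commute a d := fun h1 h2 => below_commute h1 h2
    have cx : ∀ b {d}, d ∈ D k → Commute (star (T.x b)) d := fun b _ h2 => c (star_mem (T.mem_x b)) h2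
    have mσ : ∀ i r, σ i r ∈ D k := fun i r => ms _
    have mgz : ∀ j, S.g * S.z j ∈ D k := fun j => mul_mem mg (mz j)
    have σsum : ∀ i r, star (σ i r) * σ i r = 1 - S.g * S.g := fun i r => S.s_sum _
    -- `(a d)* (a' d') = (a* a') (d* d')`
    have swap : ∀ {a a' d d' : F}, a ∈ below D k → a' ∈ below D k → d ∈ D k → d' ∈ D k →
        star (a * d) * (a' * d') = star a * a' * (star d * d') := by
      intro a a' d d' h1 h2 h3 h4
      have h5 : Commute (star a * a') (star d) :=
        c (mul_mem (star_mem h1) h2) (star_mem h3)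
      calc star (a * d) * (a' * d') = star d * (star a * a') * d' := by
            rw [star_mul]; simp only [mul_assoc]
        _ = _ := by rw [← h5.eq, mul_assoc]
    have split : ∀ f : (Fin (k + 1) → Fin 2) → F,
        ∑ b, f b = ∑ j : Fin 2, ∑ b : Fin k → Fin 2, f (Fin.cons j b) := fun f => by
      rw [← Fintype.sum_prod_type', ← Equiv.sum_comp (Fin.consEquiv fun _ => Fin 2)]
      simp [Fin.consEquiv]
    have sum_eq : ∑ b : Fin (k + 1) → Fin 2,
        star (T.x (Fin.tail b) * S.z (b 0)) * (T.x (Fin.tail b) * S.z (b 0))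
        = (∑ b, star (T.x b) * T.x b) * ∑ j, star (S.z j) * S.z j := by
      rw [split, Finset.sum_comm, Finset.sum_mul_sum]
      refine Finset.sum_congr rfl fun b _ => Finset.sum_congr rfl fun j _ => ?_
      simp only [Fin.tail_cons, Fin.cons_zero]
      exact swap (T.mem_x b) (T.mem_x b) (mz j) (mz j)
    have gz : ∀ j, star (S.g * S.z j) * (S.g * S.z j)
        = S.g * S.g * (star (S.z j) * S.z j) := by
      intro j
      have h1 : Commute (star (S.z j)) (S.g * S.g) := by
        have := (S.g_comm j).star_star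
        rw [S.g_self] at this
        exact this.symm.mul_right this.symm
      calc star (S.g * S.z j) * (S.g * S.z j)
          = star (S.z j) * (S.g * S.g) * S.z j := by
            rw [star_mul, S.g_self]; simp only [mul_assoc]
        _ = _ := by rw [h1.eq, mul_assoc]
    let v' : (T.A × Fin 2) ⊕ T.M → R → F := fun a r => Sum.elim
      (fun p => T.v p.1 (p.2, r) * (S.g * S.z p.2)) (fun i => T.W i * σ i r) a
    let W' : T.M × (Fin (3 * (Fintype.card (T.M × R) * 3) + 1) → Fin 3) → F := fun p =>
      T.W p.1 * S.T p.2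
    refine ⟨{
      M := T.M × (Fin (3 * (Fintype.card (T.M × R) * 3) + 1) → Fin 3)
      A := (T.A × Fin 2) ⊕ T.M
      finM := inferInstance, finA := inferInstance
      x := fun b => T.x (Fin.tail b) * S.z (b 0)
      e := T.e * S.e, G := T.G * S.g, W := W', v := v'
      mem_x := fun b => mul_mem (below_mono D (T.mem_x _)) (mem_below hD (mz _))
      mem_e := mul_mem (below_mono D T.mem_e) (mem_below hD me)
      mem_G := mul_mem (below_mono D T.mem_G) (mem_below hD mg)
      mem_W := fun p => mul_mem (below_mono D (T.mem_W _)) (mem_below hD (mT _))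
      mem_v := ?_
      mul_star := ?_
      G_self := by rw [star_mul, S.g_self, T.G_self]; exact (c T.mem_G mg).symm.eq
      G_comm := fun b => Commute.mul_left
        ((T.G_comm _).mul_right (c T.mem_G (mz _)))
        (((c (T.mem_x _) mg).symm).mul_right (S.g_comm _))
      sum_le := ?_, absorb := ?_, top_x := ?_, top_W := ?_, top_v := ?_
      W_sum := ?_, v_sum := ?_, v_orth := ?_, W_v := ?_ }⟩
    · rintro (⟨a, j⟩ | i) r
      · exact mul_mem (below_mono D (T.mem_v _ _)) (mem_below hD (mgz j))
      · exact mul_mem (below_mono D (T.mem_W _)) (mem_below hD (mσ i r))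
    · intro a b
      have h5 : Commute (star (T.x (Fin.tail b))) (S.z (a 0) * star (S.z (b 0))) :=
        cx _ (mul_mem (mz _) (star_mem (mz _)))
      calc T.x (Fin.tail a) * S.z (a 0) * star (T.x (Fin.tail b) * S.z (b 0))
          = T.x (Fin.tail a) * (S.z (a 0) * star (S.z (b 0)) * star (T.x (Fin.tail b))) := by
            rw [star_mul]; simp only [mul_assoc]
        _ = T.x (Fin.tail a) * star (T.x (Fin.tail b)) * (S.z (a 0) * star (S.z (b 0))) := by
            rw [← h5.eq, mul_assoc (T.x _)]
        _ = _ := by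
            rw [T.mul_star, S.mul_star]
            by_cases hab : a = b
            · subst hab; simp
            · have : ¬ (Fin.tail a = Fin.tail b ∧ a 0 = b 0) := fun h => hab (by
                rw [← Fin.cons_self_tail a, ← Fin.cons_self_tail b, h.1, h.2])
              rw [if_neg hab]
              by_cases h0 : a 0 = b 0
              · rw [if_neg (fun h => this ⟨h, h0⟩), zero_mul]
              · rw [if_neg h0, mul_zero]
    · -- the row stays below one
      rw [sum_eq]
      refine le_trans ?_ T.sum_le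
      rw [Finset.sum_mul]
      refine Finset.sum_le_sum fun b _ => ?_
      have h5 : Commute (T.x b) (∑ j, star (S.z j) * S.z j) :=
        c (T.mem_x b) (sum_mem fun j _ => mul_mem (star_mem (mz j)) (mz j))
      calc star (T.x b) * T.x b * (∑ j, star (S.z j) * S.z j)
          = star (T.x b) * (∑ j, star (S.z j) * S.z j) * T.x b := by
            rw [mul_assoc, h5.eq, ← mul_assoc]
        _ ≤ star (T.x b) * 1 * T.x b := star_left_conjugate_le_conjugate S.sum_le _
        _ = _ := by rw [mul_one]
    · rw [sum_eq]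
      have h5 : Commute S.g (∑ b, star (T.x b) * T.x b) :=
        (c (sum_mem fun b _ => mul_mem (star_mem (T.mem_x b)) (T.mem_x b)) mg).symm
      rw [h5.mul_mul_mul_comm, T.absorb, S.absorb]
    · intro b
      have h1 : Commute S.e (T.G * T.x (Fin.tail b)) :=
        (c (mul_mem T.mem_G (T.mem_x _)) me).symm
      have h2 : Commute S.g (T.x (Fin.tail b)) := (c (T.mem_x _) mg).symm
      rw [h2.mul_mul_mul_comm, h1.mul_mul_mul_comm, T.top_x, S.top_z]
    · rintro ⟨i, ι⟩
      simp only [W']
      rw [(c (T.mem_W i) me).symm.mul_mul_mul_comm, T.top_W, S.top_T]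
    · rintro (⟨a, j⟩ | i) r
      · simp only [v', Sum.elim_inl]
        rw [(c (T.mem_v _ _) me).symm.mul_mul_mul_comm, T.top_v, S.top_z]
      · simp only [v', Sum.elim_inr, σ]
        rw [(c (T.mem_W i) me).symm.mul_mul_mul_comm, T.top_W, S.top_s]
    · simp only [W']
      rw [Fintype.sum_prod_type]
      calc ∑ i, ∑ ι, star (T.W i * S.T ι) * (T.W i * S.T ι)
          = ∑ i, ∑ ι, star (T.W i) * T.W i * (star (S.T ι) * S.T ι) :=
            Finset.sum_congr rfl fun i _ => Finset.sum_congr rfl fun ι _ =>
              swap (T.mem_W i) (T.mem_W i) (mT ι) (mT ι)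
        _ = 1 := by rw [← Finset.sum_mul_sum, T.W_sum, S.T_sum, one_mul]
    · intro r
      rw [Fintype.sum_sum_type, Fintype.sum_prod_type]
      simp only [v', Sum.elim_inl, Sum.elim_inr]
      have e1 : ∀ j a, star (T.v a (j, r) * (S.g * S.z j)) * (T.v a (j, r) * (S.g * S.z j))
          = star (T.v a (j, r)) * T.v a (j, r) * (S.g * S.g * (star (S.z j) * S.z j)) := fun j a =>
        by rw [swap (T.mem_v _ _) (T.mem_v _ _) (mgz j) (mgz j), gz]
      have e2 : ∀ i, star (T.W i * σ i r) * (T.W i * σ i r)
          = star (T.W i) * T.W i * (1 - S.g * S.g) := fun i => by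
        rw [swap (T.mem_W i) (T.mem_W i) (mσ i r) (mσ i r), σsum]
      rw [Finset.sum_comm]
      simp only [e1, e2, ← Finset.sum_mul, T.v_sum, T.W_sum, ← Finset.mul_sum, one_mul]
      rw [mul_assoc S.g S.g, S.absorb, (c T.mem_G mg).symm.mul_mul_mul_comm]
      noncomm_ring
    · rintro (⟨a, j⟩ | i) r (⟨a', j'⟩ | i') r' hne <;> simp only [v', Sum.elim_inl, Sum.elim_inr]
      · rw [swap (T.mem_v _ _) (T.mem_v _ _) (mgz j) (mgz j'),
          T.v_orth _ _ _ _ (fun h => hne (by simp_all)), zero_mul]
      · rw [swap (T.mem_v _ _) (T.mem_W _) (mgz j) (mσ i' r'),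
          show star (T.v a (j, r)) * T.W i' = 0 by
            simpa using congrArg star (T.W_v i' a (j, r)), zero_mul]
      · rw [swap (T.mem_W _) (T.mem_v _ _) (mσ i r) (mgz j'), T.W_v, zero_mul]
      · rw [swap (T.mem_W _) (T.mem_W _) (mσ i r) (mσ i' r')]
        simp only [σ]
        rw [S.s_orth _ _ (fun h => hne (by
          have := (Fintype.equivFin (T.M × R)).injective h
          simp_all)), mul_zero]
    · rintro ⟨i, ι⟩ (⟨a, j⟩ | i') r <;> simp only [W', v', Sum.elim_inl, Sum.elim_inr]
      · rw [swap (T.mem_W _) (T.mem_v _ _) (mT ι) (mgz j), T.W_v, zero_mul]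
      · rw [swap (T.mem_W _) (T.mem_W _) (mT ι) (mσ i' r)]
        simp only [σ]
        rw [S.T_s, mul_zero]

end Vale.Agent.P101.DropN
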